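import Vale.Agent.P167.H825.B5.PArm
import Vale.Agent.P167.H713.Q.Comp

/-!
# P167, general `q`, [BAD]: the inclusion

One history, one colour: a long cluster of the frozen squares gives three strands, or two strands and
the boundary, in one of the boxes.
-/

set_option autoImplicit false

namespace Vale.Agent.P167.H825.B5

open Filter Topology Set
open Relation (ReflTransGen)
open Vale.Agent.P145.FB (PStep)
open Vale.Agent.P167.FKA (Cor)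
open Vale.Agent.P167.E6 Vale.Agent.P167.E2
open Vale.Agent.P167.H718 (Dq)
open Vale.Agent.P167.H634 (SqD)
open Vale.Agent.P167.H72.SD (dk Wr om NSup NSlo)
open Vale.Agent.P167.H713.Q (Cn Cfl Bad oR Dn Sd tip)
open Vale.Agent.P167.H174 (bc)
open Vale.Agent.P167.H446.G (rS rR bad)
open Vale.Agent.P167.H174.CT (NearC thk rep T32 Far ps)
open Vale.Agent.P167.H531.Q (BC)
open Vale.Agent.P167.H192 (ro)
open Vale.Agent.P167.H411 (exn)

variable {n : ℕ} {p : ZMod n → ℤ × ℤ} {k : ℕ} {S : Finset (ℤ × ℤ)} {A : Finset (Sym2 (ℤ × ℤ))} {j : ℕ}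
  {δ : ℝ}

/-- The inner statement of `P_b1`, one history. -/
def B1j {n : ℕ} (p : ZMod n → ℤ × ℤ) (k : ℕ) (S : Finset (ℤ × ℤ)) (A : Finset (Sym2 (ℤ × ℤ)))
    (j : ℕ) (δ s η : ℝ) : Prop :=
  ∀ (c col : Bool) (zc z : ℤ × ℤ) (Rc : ℕ) (r R : ℤ)
    (h : ℕ) (u w : ℂ), Cfl p k S A j δ c zc (rS s δ) Rc u w →
    NearC p k z R col →
    ((nm (zc - z) : ℤ) : ℝ) + rS s δ + η / δ + 40 ≤ r → r ≤ R → nm (zc - z) + R + 20 ≤ Rc →
    R + 20 < nm (ro (p 0) - z) → R + 20 < nm (ro (p k) - z) → η / δ ≤ h →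
    ∀ x ∈ dk p k S A j,
      (SqD δ x ∩ Cn p k S A j δ zc (rS s δ) u).Nonempty →
    ∀ q : ℤ × ℤ, Cor x q → (q.1 + q.2) % 2 = QC.par (!c) → ∀ t, BC z R t →
      ReflTransGen (PStep {v | v ∈ FK.Bq z R ∧ rep (Dq S p k)
        (thk p k S z R col) (H192.cfg (wiredOpen p k A)) v = !c}) q t →
      rep (Dq S p k) (thk p k S z R col)
        (H192.cfg (wiredOpen p k A)) ∈ T32 (Dq S p k) col z r R h

/-- The inner statement of `P_b1`. -/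
def B1n {n : ℕ} (p : ZMod n → ℤ × ℤ) (k : ℕ) (S : Finset (ℤ × ℤ)) (δ s η : ℝ) : Prop :=
  ∀ A ⊆ edges S, ∀ j ≤ len p k A + 1, B1j p k S A j δ s η

theorem b1n_of {δ : ℕ → ℝ} {N k : ℕ → ℕ} {p : ∀ n, ZMod (N n) → ℤ × ℤ}
    {S : ℕ → Finset (ℤ × ℤ)} (h : H174.BD.P_b1 δ N k p S) {η : ℝ} (hη : 0 < η) :
    ∃ s₀ : ℝ, 0 < s₀ ∧ ∀ s : ℝ, 0 < s → s ≤ s₀ → ∀ᶠ n in atTop,
      B1n (p n) (k n) (S n) (δ n) s η := h η hη

theorem nm_tri (a b c : ℤ × ℤ) : nm (a - c) ≤ nm (a - b) + nm (b - c) := by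
  have h1 := (H166.nm_le (s := a - b)).1 le_rfl
  have h2 := (H166.nm_le (s := b - c)).1 le_rfl
  rw [H166.nm_le]
  simp only [Prod.fst_sub, Prod.snd_sub] at *
  omega

theorem nm_symm (a b : ℤ × ℤ) : nm (a - b) = nm (b - a) := by
  have key : ∀ a b : ℤ × ℤ, nm (a - b) ≤ nm (b - a) := by
    intro a b
    have h1 := (H166.nm_le (s := b - a)).1 le_rfl
    rw [H166.nm_le]
    simp only [Prod.fst_sub, Prod.snd_sub] at *
    omega
  exact le_antisymm (key a b) (key b a)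

/-- A conflict pair of a large radius is a conflict pair of a small radius. -/
theorem cfl_mono (hδ : 0 < δ) {c : Bool} {z : ℤ × ℤ} {ρ R R' : ℕ} {u w : ℂ} (hR : R' ≤ R)
    (h : Cfl p k S A j δ c z ρ R u w) : Cfl p k S A j δ c z ρ R' u w := by
  have h1 : (R' : ℝ) ≤ R := by exact_mod_cast hR
  exact ⟨h.u_mem, h.w_mem, h.u_reg, h.w_reg, fun h2 => h.nj (H713.Q.Cn_mono hδ h1 h2), h.su, h.sw,
    fun h2 => h.nt (closure_mono (H713.Q.Cn_mono hδ h1) h2)⟩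

/-- The point of a small region is near the centre. -/
theorem dist_reg {z : ℤ × ℤ} {ρ : ℝ} {u : ℂ} (h : u ∈ oR δ z ρ) :
    dist u ((δ : ℂ) * ps z) ≤ 2 * (δ * ρ) := by
  obtain ⟨h1, h2⟩ := h
  have e1 : ((δ : ℂ) * ps z).re = δ * (((z.1 : ℝ) + z.2) / 2) := by
    rw [Complex.re_ofReal_mul]
    rfl
  have e2 : ((δ : ℂ) * ps z).im = δ * (((z.2 : ℝ) - z.1) / 2) := by
    rw [Complex.im_ofReal_mul]
    rfl
  rw [dist_eq_norm]
  refine (Complex.norm_le_abs_re_add_abs_im _).trans ?_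
  rw [Complex.sub_re, Complex.sub_im, e1, e2]
  rw [abs_lt] at h1 h2
  have a1 : |u.re - δ * (((z.1 : ℝ) + z.2) / 2)| ≤ δ * ρ := by
    rw [abs_le]
    constructor <;> linarith
  have a2 : |u.im - δ * (((z.2 : ℝ) - z.1) / 2)| ≤ δ * ρ := by
    rw [abs_le]
    constructor <;> linarith
  linarith

/-- A square which meets a region is near its centre. -/
theorem nm_sq (hδ : 0 < δ) {z v q : ℤ × ℤ} {ρ : ℕ} {x : ℂ} (hx : x ∈ SqD δ v)
    (h : x ∈ oR δ z ρ) (hq : Cor v q) : nm (q - z) ≤ ρ + 1 := by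
  obtain ⟨h1, h2⟩ := h
  obtain ⟨⟨a1, a2⟩, a3, a4⟩ := (H713.Q.mem_SqD hδ).1 hx
  rw [abs_lt] at h1 h2
  have b1 : (v.1 : ℝ) < z.1 + ρ := by
    refine lt_of_mul_lt_mul_left ?_ hδ.le
    rw [mul_add]
    linarith
  have b2 : (z.1 : ℝ) < v.1 + 1 + ρ := by
    refine lt_of_mul_lt_mul_left ?_ hδ.le
    rw [mul_add]
    linarith
  have b3 : (v.2 : ℝ) < z.2 + ρ := by
    refine lt_of_mul_lt_mul_left ?_ hδ.le
    rw [mul_add]
    linarith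
  have b4 : (z.2 : ℝ) < v.2 + 1 + ρ := by
    refine lt_of_mul_lt_mul_left ?_ hδ.le
    rw [mul_add]
    linarith
  have c1 : v.1 < z.1 + ρ := by exact_mod_cast b1
  have c2 : z.1 < v.1 + 1 + ρ := by exact_mod_cast b2
  have c3 : v.2 < z.2 + ρ := by exact_mod_cast b3
  have c4 : z.2 < v.2 + 1 + ρ := by exact_mod_cast b4
  obtain ⟨d1, d2⟩ := hq
  rw [H166.nm_le]
  simp only [Prod.fst_sub, Prod.snd_sub]
  omega

theorem rS_le (hδ : 0 < δ) {s : ℝ} (hs : 0 < s) : (rS s δ : ℝ) ≤ 800 * (s / δ) + 8 := by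
  have h1 : (⌈100 * s / δ⌉₊ : ℝ) < 100 * s / δ + 1 := Nat.ceil_lt_add_one (by positivity)
  have h2 : (rS s δ : ℝ) = 8 * (⌈100 * s / δ⌉₊ : ℝ) := by
    unfold rS
    push_cast
    ring
  have h3 : 100 * s / δ = 100 * (s / δ) := by ring
  rw [h3] at h1 h2
  rw [h2]
  linarith

/-- **The inclusion.** -/
theorem inc_j {Φ : (ℝ × ℝ) ≃ₜ (ℝ × ℝ)} {s r r' m ηb ηc R₂ K ρF L r₃ : ℝ} {Z : Finset (ℤ × ℤ)}
    {col : ℤ × ℤ → Bool} {c : Bool} (hp : IsPolygon p) (hS : Encloses p S) (hk0 : 0 < k)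
    (hk : k + 1 < n) (hA : A ⊆ edges S)
    (hK : 8 ≤ K) (hδ : 0 < δ) (hs : 0 < s) (n1 : 2000 * s ≤ R₂ / (8 * K))
    (n2 : 200 * δ ≤ R₂ / (8 * K)) (n3 : ηb ≤ R₂ / (4 * K)) (n4 : ηb + δ ≤ ηc)
    (n5 : 8 * R₂ ≤ r') (n6 : 16 * R₂ ≤ ρF) (n7 : ρF ≤ m / 8) (n8 : r' ≤ m / 8) (n9 : r' ≤ r)
    (n10 : ρF ≤ r₃)
    (h1 : B1j p k S A j δ s ηb)
    (h2 : ∀ z ∈ Z, Far Φ (ρF / 2) ((δ : ℂ) * ps z) ∧ NearC p k z ⌊R₂ / δ⌋ (col z))
    (h2' : ∀ v : ℤ × ℤ, ‖(δ : ℂ) * ps v‖ ≤ L → Far Φ ρF ((δ : ℂ) * ps v) →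
      ∃ z ∈ Z, v ∈ FK.Bq z ⌊R₂ / (K * δ)⌋)
    (h3 : ∀ z : ℤ × ℤ, δ * (((nm (z - ro (p k)) : ℤ) : ℝ) + rR r' δ) ≤ m →
      ∀ (c : Bool) (u w : ℂ), ¬ Cfl p k S A j δ c z (rS s δ) (rR r' δ) u w)
    (h4 : ∀ (z : ℤ × ℤ) (c : Bool) (u w : ℂ), dist ((δ : ℂ) * ps z) (bc Φ 0) ≤ r₃ →
      ¬ Cfl p k S A j δ c z (rS s δ) (rR r' δ) u w)
    (h5 : ∀ w ∈ E2.Om δ S, ‖w‖ + R₂ ≤ L) (h5a : dist ((δ : ℂ) * E6.pt (p 0)) (bc Φ 0) ≤ ρF / 16)
    (h5b : dist ((δ : ℂ) * E6.pt (p k)) (bc Φ Real.pi) ≤ ρF / 16)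
    {Bx : Finset (ℤ × ℤ)} {F : Set (ℤ × ℤ)}
    (h6 : ∀ t, (if c then t ∈ BR.sites Bx else t ∈ F) →
      δ * ((nm (t - ro (p k)) : ℤ) : ℝ) ≤ m / 4)
    (hE : H192.cfg (wiredOpen p k A) ∈ (if c then NSup (dk p k S A j) (bad p k S δ r s A j c) Bx
      else NSlo (dk p k S A j) (om p k A) (bad p k S δ r s A j c) F)) :
    ∃ z ∈ Z, rep (Dq S p k) (thk p k S z ⌊R₂ / δ⌋ (col z)) (H192.cfg (wiredOpen p k A)) ∈
      T32 (Dq S p k) (col z) z (2 * ⌊R₂ / (K * δ)⌋) ⌊R₂ / δ⌋ ⌊ηc / δ⌋₊ := by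
  obtain ⟨v, hv, q, hvq, hpar, hall⟩ := arm_ns hp hS hk0 hk hA (b := c)
    (Bad := bad p k S δ r s A j c) (Bx := Bx) (F := F) hE
  have hv' : v ∈ Bad p k S A j δ c (rS s δ) (rR r δ) := hv
  obtain ⟨hvd, zc, u, w, -, hC, x, hx1, hx2⟩ : v ∈ dk p k S A j ∧
      ∃ (z : ℤ × ℤ) (u w : ℂ), (Even (z.1 + z.2) ↔ c = true) ∧
      Cfl p k S A j δ c z (rS s δ) (rR r δ) u w ∧
        (SqD δ v ∩ Cn p k S A j δ z (rS s δ) u).Nonempty := by
    classical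
    unfold Bad at hv'
    rwa [Finset.mem_filter] at hv'
  have hC' : Cfl p k S A j δ c zc (rS s δ) (rR r' δ) u w := by
    refine cfl_mono hδ ?_ hC
    exact Nat.floor_mono (div_le_div_of_nonneg_right n9 hδ.le)
  have hxr : x ∈ oR δ zc (rS s δ) := (H713.Q.Cn_sub hx2).2
  -- numbers
  have hK0 : 0 < K := by linarith
  obtain ⟨X, hX⟩ : ∃ X : ℝ, X = R₂ / δ := ⟨_, rfl⟩
  have hR2 : R₂ = X * δ := by rw [hX]; field_simp
  have hXK : 1600 ≤ X / K := by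
    have h : R₂ / (8 * K) = X / K / 8 * δ := by rw [hR2]; field_simp
    rw [h] at n2
    have := le_of_mul_le_mul_right n2 hδ
    linarith
  have hX0 : 0 < X := by
    have : 0 < X / K := by linarith
    rcases div_pos_iff.1 this with h | h
    · exact h.1
    · linarith [h.2]
  have hXK8 : X / K ≤ X / 8 := div_le_div_of_nonneg_left hX0.le (by norm_num) hK
  have hX1 : 12800 ≤ X := by linarith
  have hsδ : 800 * (s / δ) ≤ X / K / 20 := by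
    have h : R₂ / (8 * K) = X / K / 8 * δ := by rw [hR2]; field_simp
    rw [h] at n1
    have h2 : s = s / δ * δ := by field_simp
    rw [h2, ← mul_assoc] at n1
    have := le_of_mul_le_mul_right n1 hδ
    linarith
  have hrS : (rS s δ : ℝ) ≤ X / K / 20 + 8 := (rS_le hδ hs).trans (by linarith)
  have hηX : ηb / δ ≤ X / K / 4 := by
    rw [div_le_iff₀ hδ]
    refine n3.trans (le_of_eq ?_)
    rw [hR2]
    field_simp
  obtain ⟨M, hM⟩ : ∃ M : ℤ, M = ⌊R₂ / (K * δ)⌋ := ⟨_, rfl⟩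
  obtain ⟨R, hR⟩ : ∃ R : ℤ, R = ⌊R₂ / δ⌋ := ⟨_, rfl⟩
  have eM : R₂ / (K * δ) = X / K := by rw [hR2]; field_simp
  have m1 : (M : ℝ) ≤ X / K := by rw [hM, eM]; exact Int.floor_le _
  have m2 : X / K < M + 1 := by rw [hM, eM]; exact Int.lt_floor_add_one _
  have r1 : (R : ℝ) ≤ X := by rw [hR, ← hX]; exact Int.floor_le _
  have r2 : X < R + 1 := by rw [hR, ← hX]; exact Int.lt_floor_add_one _
  have hRR : (rR r' δ : ℝ) * δ ≤ r' := by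
    have h0 : 0 ≤ r' / δ := by
      have : 0 < R₂ := by rw [hR2]; positivity
      have : 0 < r' := by linarith
      positivity
    have h := Nat.floor_le h0
    rwa [le_div_iff₀ hδ] at h
  have hRR2 : 8 * X < rR r' δ + 1 := by
    have h := Nat.lt_floor_add_one (r' / δ)
    have h3 : 8 * X ≤ r' / δ := by
      rw [le_div_iff₀ hδ]
      rw [hR2] at n5
      linarith
    exact h3.trans_lt h
  have hm : 0 < m := by
    have : 0 < R₂ := by rw [hR2]; positivity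
    linarith
  -- the centre is far from the target
  have hb : 7 * m / 8 < δ * ((nm (zc - ro (p k)) : ℤ) : ℝ) := by
    by_contra hcon
    refine h3 zc ?_ c u w hC'
    push Not at hcon
    rw [mul_add]
    have : δ * (rR r' δ : ℝ) ≤ m / 8 := by
      rw [mul_comm]
      linarith
    linarith
  -- and from the start
  have ha : r₃ < dist ((δ : ℂ) * ps zc) (bc Φ 0) := by
    by_contra hcon
    push Not at hcon
    exact h4 zc c u w hcon hC'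
  have hps : ∀ a b : ℤ × ℤ, dist ((δ : ℂ) * ps a) ((δ : ℂ) * ps b) = δ * dist (ps a) (ps b) :=
    fun a b => H174.CT.dist_ps hδ.le a b
  have hfar : Far Φ ρF ((δ : ℂ) * ps zc) := by
    refine ⟨?_, ?_⟩
    · exact n10.trans ha.le
    · have h7 := H174.CT.le_ps_dist zc (ro (p k))
      have h8 := mul_le_mul_of_nonneg_left h7 hδ.le
      have h9 := hps zc (ro (p k))
      rw [H174.CT.ps_ro] at h9
      have h10 := dist_triangle ((δ : ℂ) * ps zc) (bc Φ Real.pi) ((δ : ℂ) * E6.pt (p k))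
      rw [dist_comm (bc Φ Real.pi)] at h10
      rw [H174.CT.ps_ro] at h8
      show ρF ≤ dist ((δ : ℂ) * ps zc) (bc Φ Real.pi)
      linarith
  have hL : ‖(δ : ℂ) * ps zc‖ ≤ L := by
    have h7 := dist_reg hC.u_reg
    have h8 := h5 u hC.u_mem.1
    have h9 : ‖(δ : ℂ) * ps zc‖ ≤ ‖u‖ + dist u ((δ : ℂ) * ps zc) := by
      rw [dist_eq_norm, ← norm_neg (u - (δ : ℂ) * ps zc)]
      calc ‖(δ : ℂ) * ps zc‖ = ‖u + -(u - (δ : ℂ) * ps zc)‖ := by congr 1; ring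
        _ ≤ _ := norm_add_le _ _
    have h10 : 2 * (δ * ((rS s δ : ℝ) / 2)) ≤ R₂ := by
      rw [hR2]
      nlinarith
    linarith
  obtain ⟨z, hz, hzc⟩ := h2' zc hL hfar
  obtain ⟨hzF, hN⟩ := h2 z hz
  rw [← hR] at hN
  rw [H166.mem_Bq, ← hM] at hzc
  have hzz : nm (zc - z) ≤ M := by
    rw [H166.nm_le]
    simp only [Prod.fst_sub, Prod.snd_sub]
    omega
  have hzzr : ((nm (zc - z) : ℤ) : ℝ) ≤ M := by exact_mod_cast hzz
  -- the corner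
  have hqz : nm (q - z) ≤ R := by
    have h7 := nm_sq hδ hx1 hxr hvq
    have h8 := nm_tri q zc z
    have h9 : ((rS s δ : ℤ) : ℝ) + 1 + M ≤ R := by
      push_cast
      linarith
    have h10 : (rS s δ : ℤ) + 1 + M ≤ R := by exact_mod_cast h9
    omega
  obtain ⟨t, ht, hqt⟩ := hall z R (col z) hN hqz fun t ht => by
    have h7 := h6 t ht
    have h8 := nm_tri zc t (ro (p k))
    have h9 := nm_tri zc z t
    have h10 : nm (z - t) = nm (t - z) := nm_symm z t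
    have h11 : ((nm (zc - ro (p k)) : ℤ) : ℝ) ≤ (nm (zc - z) : ℤ) + (nm (t - z) : ℤ) +
        (nm (t - ro (p k)) : ℤ) := by
      exact_mod_cast (by omega : nm (zc - ro (p k)) ≤ nm (zc - z) + nm (t - z) +
        nm (t - ro (p k)))
    have h12 := mul_le_mul_of_nonneg_left h11 hδ.le
    have h13 := mul_le_mul_of_nonneg_left (hzzr.trans m1) hδ.le
    have h14 : (R : ℝ) ≤ (nm (t - z) : ℤ) := by
      refine r1.trans ?_
      refine le_of_mul_le_mul_left ?_ hδ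
      have h15 : δ * (X / K) ≤ δ * (X / 8) := mul_le_mul_of_nonneg_left hXK8 hδ.le
      have h16 : δ * X = R₂ := by rw [hR2]; ring
      have h17 : δ * (X / 8) = R₂ / 8 := by rw [← h16]; ring
      rw [mul_add, mul_add] at h12
      linarith
    exact_mod_cast h14
  refine ⟨z, hz, ?_⟩
  rw [← hR, ← hM]
  have hmark : ∀ a : ℤ × ℤ, ∀ b : ℂ, ρF / 2 ≤ dist ((δ : ℂ) * ps z) b →
      dist ((δ : ℂ) * E6.pt a) b ≤ ρF / 16 → R + 20 < nm (ro a - z) := by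
    intro a b hb1 hb2
    have h7 := H174.CT.ps_dist_le (ro a) z
    have h8 := mul_le_mul_of_nonneg_left h7 hδ.le
    rw [← hps, H174.CT.ps_ro] at h8
    have h9 := dist_triangle_left ((δ : ℂ) * ps z) b ((δ : ℂ) * E6.pt a)
    have h10 : X + 20 < (nm (ro a - z) : ℤ) := by
      refine lt_of_mul_lt_mul_left ?_ hδ.le
      have h16 : δ * X = R₂ := by rw [hR2]; ring
      rw [mul_add]
      have h17 : δ * 20 ≤ R₂ := by rw [← h16]; nlinarith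
      have hR0 : 0 < R₂ := by rw [hR2]; positivity
      linarith
    have h11 : ((R + 20 : ℤ) : ℝ) < (nm (ro a - z) : ℤ) := by
      push_cast
      linarith
    exact_mod_cast h11
  refine h1 c (col z) zc z (rR r' δ) (2 * M) R _ u w hC' hN ?_ ?_ ?_
    (hmark (p 0) (bc Φ 0) hzF.1 h5a) (hmark (p k) (bc Φ Real.pi) hzF.2 h5b) ?_ v hvd
    ⟨x, hx1, hx2⟩ q hvq hpar t ht hqt
  · push_cast
    linarith
  · have : ((2 * M : ℤ) : ℝ) ≤ R := by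
      push_cast
      linarith
    exact_mod_cast this
  · have : ((nm (zc - z) + R + 20 : ℤ) : ℝ) ≤ ((rR r' δ : ℤ) : ℝ) := by
      push_cast
      linarith
    exact_mod_cast this
  · have h7 := (Nat.lt_floor_add_one (ηc / δ)).le
    have h8 : (ηb + δ) / δ ≤ ηc / δ := div_le_div_of_nonneg_right n4 hδ.le
    rw [add_div, div_self hδ.ne'] at h8
    linarith

/-- **The inclusion**, from the inner statement of `P_b1`. -/
theorem inc {Φ : (ℝ × ℝ) ≃ₜ (ℝ × ℝ)} {s r r' m ηb ηc R₂ K ρF L r₃ : ℝ} {Z : Finset (ℤ × ℤ)}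
    {col : ℤ × ℤ → Bool} {c : Bool} (hp : IsPolygon p) (hS : Encloses p S) (hk0 : 0 < k)
    (hk : k + 1 < n) (hA : A ⊆ edges S) (hj : j ≤ len p k A + 1)
    (hK : 8 ≤ K) (hδ : 0 < δ) (hs : 0 < s) (n1 : 2000 * s ≤ R₂ / (8 * K))
    (n2 : 200 * δ ≤ R₂ / (8 * K)) (n3 : ηb ≤ R₂ / (4 * K)) (n4 : ηb + δ ≤ ηc) (_hηb : 0 < ηb)
    (n5 : 8 * R₂ ≤ r') (n6 : 16 * R₂ ≤ ρF) (n7 : ρF ≤ m / 8) (n8 : r' ≤ m / 8) (n9 : r' ≤ r)
    (n10 : ρF ≤ r₃)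
    (h1 : B1n p k S δ s ηb)
    (h2 : ∀ z ∈ Z, Far Φ (ρF / 2) ((δ : ℂ) * ps z) ∧ NearC p k z ⌊R₂ / δ⌋ (col z))
    (h2' : ∀ v : ℤ × ℤ, ‖(δ : ℂ) * ps v‖ ≤ L → Far Φ ρF ((δ : ℂ) * ps v) →
      ∃ z ∈ Z, v ∈ FK.Bq z ⌊R₂ / (K * δ)⌋)
    (h3 : ∀ z : ℤ × ℤ, δ * (((nm (z - ro (p k)) : ℤ) : ℝ) + rR r' δ) ≤ m →
      ∀ (c : Bool) (u w : ℂ), ¬ Cfl p k S A j δ c z (rS s δ) (rR r' δ) u w)
    (h4 : ∀ (z : ℤ × ℤ) (c : Bool) (u w : ℂ), dist ((δ : ℂ) * ps z) (bc Φ 0) ≤ r₃ →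
      ¬ Cfl p k S A j δ c z (rS s δ) (rR r' δ) u w)
    (h5 : ∀ w ∈ E2.Om δ S, ‖w‖ + R₂ ≤ L) (h5a : dist ((δ : ℂ) * E6.pt (p 0)) (bc Φ 0) ≤ ρF / 16)
    (h5b : dist ((δ : ℂ) * E6.pt (p k)) (bc Φ Real.pi) ≤ ρF / 16)
    {Bx : Finset (ℤ × ℤ)} {F : Set (ℤ × ℤ)}
    (h6 : ∀ t, (if c then t ∈ BR.sites Bx else t ∈ F) →
      δ * ((nm (t - ro (p k)) : ℤ) : ℝ) ≤ m / 4)
    (hE : H192.cfg (wiredOpen p k A) ∈ (if c then NSup (dk p k S A j) (bad p k S δ r s A j c) Bx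
      else NSlo (dk p k S A j) (om p k A) (bad p k S δ r s A j c) F)) :
    ∃ z ∈ Z, rep (Dq S p k) (thk p k S z ⌊R₂ / δ⌋ (col z)) (H192.cfg (wiredOpen p k A)) ∈
      T32 (Dq S p k) (col z) z (2 * ⌊R₂ / (K * δ)⌋) ⌊R₂ / δ⌋ ⌊ηc / δ⌋₊ :=
  inc_j hp hS hk0 hk hA hK hδ hs n1 n2 n3 n4 n5 n6 n7 n8 n9 n10 (h1 A hA j hj) h2 h2' h3 h4 h5
    h5a h5b h6 hE

end Vale.Agent.P167.H825.B5
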