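import Vale.Agent.P167.H446.G.Lit

/-!
# P167, general `q`, [BAD]: the targets of `NSup`, `NSlo` are near the target of the interface
-/

set_option autoImplicit false

namespace Vale.Agent.P167.H825.B5

open Vale.Agent.P167.BR (hbox)
open Vale.Agent.P167.H192 (ro)
open Vale.Agent.P167.H72.SD (Ff Rect)
open Vale.Agent.P167.H446.G

variable {n : ℕ} {p : ZMod n → ℤ × ℤ} {k : ℕ} {C : Cst} {δ s ρ : ℝ}

theorem mq_le (hδ : 0 < δ) (hs : 0 < s) {L : ℝ} (hL : 0 ≤ L) :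
    δ * (mq L s δ : ℝ) ≤ √2 * (L + s) := by
  have h2 : 0 < √2 := by positivity
  have e1 : δ = √2 * H446.G.dl δ := by unfold H446.G.dl; field_simp
  have hN := Nn_le hs hδ
  have hd := dl_pos hδ
  have hK : (Ku L s : ℝ) * s ≤ L := by
    have h := Nat.floor_le (show 0 ≤ L / s by positivity)
    rwa [le_div_iff₀ hs] at h
  have h3 : ((H446.G.Nn s δ / 2 : ℕ) : ℝ) ≤ H446.G.Nn s δ := by exact_mod_cast Nat.div_le_self _ _
  unfold mq
  push_cast
  have h4 : H446.G.dl δ * ((Ku L s : ℝ) * H446.G.Nn s δ + ((H446.G.Nn s δ / 2 : ℕ) : ℝ)) ≤ L + s := by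
    have h5 : H446.G.dl δ * ((Ku L s : ℝ) * H446.G.Nn s δ) ≤ L := by
      calc H446.G.dl δ * ((Ku L s : ℝ) * H446.G.Nn s δ) = Ku L s * (H446.G.dl δ * H446.G.Nn s δ) := by ring
        _ ≤ Ku L s * s := mul_le_mul_of_nonneg_left hN (Nat.cast_nonneg _)
        _ ≤ L := hK
    have h6 : H446.G.dl δ * ((H446.G.Nn s δ / 2 : ℕ) : ℝ) ≤ H446.G.dl δ * H446.G.Nn s δ := mul_le_mul_of_nonneg_left h3 hd.le
    rw [mul_add]
    linarith
  have h5 : ((H446.G.Nn s δ / 2 : ℕ) : ℝ) = ((H446.G.Nn s δ / 2 : ℕ) : ℝ) := rfl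
  calc δ * ((Ku L s : ℝ) * H446.G.Nn s δ + ((H446.G.Nn s δ / 2 : ℕ) : ℝ))
      = √2 * (H446.G.dl δ * ((Ku L s : ℝ) * H446.G.Nn s δ + ((H446.G.Nn s δ / 2 : ℕ) : ℝ))) := by
        nth_rw 1 [e1]
        ring
    _ ≤ √2 * (L + s) := mul_le_mul_of_nonneg_left h4 h2.le

theorem mb_le (hδ : 0 < δ) {m : ℝ} (hm : 0 < m) : δ * (mb m δ : ℝ) ≤ m := by
  have hd := dl_pos hδ
  have e1 : δ = √2 * H446.G.dl δ := by unfold H446.G.dl; field_simp
  have h1 := Int.floor_le (m / (8 * H446.G.dl δ))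
  have h2 : √2 ≤ 2 := by
    rw [show (2 : ℝ) = √(2 ^ 2) by rw [Real.sqrt_sq]; norm_num]
    exact Real.sqrt_le_sqrt (by norm_num)
  unfold mb
  calc δ * ((⌊m / (8 * H446.G.dl δ)⌋ : ℤ) : ℝ) ≤ δ * (m / (8 * H446.G.dl δ)) :=
        mul_le_mul_of_nonneg_left h1 hδ.le
    _ = √2 * m / 8 := by
        nth_rw 1 [e1]
        field_simp
    _ ≤ m := by nlinarith

/-- **The targets are near the target.** -/
theorem targ_near (hC : C.Sm ρ) (hδ : 0 < δ) (hs : 0 < s) (hsm : s ≤ C.m) (hδm : 8 * δ ≤ C.m)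
    {b : Bool} {t : ℤ × ℤ}
    (ht : if b then t ∈ BR.sites (FK.Bq (vd p k C.Ld s δ) (mb C.m δ)) else
      t ∈ Ff (ro (p k)) (mq C.Lc s δ + 1)
        ((vd p k C.Ld s δ).1 - mb C.m δ) ((vd p k C.Ld s δ).1 + mb C.m δ)
        ((vd p k C.Ld s δ).2 - mb C.m δ) ((vd p k C.Ld s δ).2 + mb C.m δ)) :
    δ * ((nm (t - ro (p k)) : ℤ) : ℝ) ≤ 2 * ρ := by
  have hm := hC.m_pos
  have h1 := hC.m_Ld
  have h2 := hC.Ld_Lc
  have h3 := hC.Lc_le
  have h4 : √2 ≤ 3 / 2 := by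
    rw [show (3 / 2 : ℝ) = √((3 / 2) ^ 2) by rw [Real.sqrt_sq]; norm_num]
    exact Real.sqrt_le_sqrt (by norm_num)
  have m1 := mb_le hδ hm
  have m2 := mq_le hδ hs (L := C.Ld) (by linarith)
  have m3 := mq_le hδ hs (L := C.Lc) (by linarith)
  have hmb : 0 ≤ mb C.m δ := by
    have := dl_pos hδ
    exact Int.floor_nonneg.2 (by positivity)
  have evd : vd p k C.Ld s δ = ro (p k) - ((mq C.Ld s δ : ℤ), 0) := rfl
  have n1 : δ * (mq C.Ld s δ : ℝ) ≤ 3 / 2 * (C.Ld + s) :=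
    m2.trans (mul_le_mul_of_nonneg_right h4 (by linarith))
  have n2 : δ * (mq C.Lc s δ : ℝ) ≤ 3 / 2 * (C.Lc + s) :=
    m3.trans (mul_le_mul_of_nonneg_right h4 (by linarith))
  have key : nm (t - ro (p k)) ≤ mq C.Lc s δ + 3 ∨
      nm (t - ro (p k)) ≤ mq C.Ld s δ + mb C.m δ := by
    rw [evd] at ht
    unfold nm
    simp only [Prod.fst_sub, Prod.snd_sub, max_le_iff, abs_le]
    cases b
    · rw [if_neg (by decide)] at ht
      obtain ⟨-, h5 | h5⟩ := ht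
      · left
        push_cast at h5
        omega
      · right
        obtain ⟨h5, h6, h7, h8⟩ := h5
        simp only [Prod.fst_sub, Prod.snd_sub] at h5 h6 h7 h8
        omega
    · rw [if_pos rfl] at ht
      right
      unfold BR.sites at ht
      simp only [Finset.mem_biUnion, Finset.mem_insert, Finset.mem_singleton] at ht
      obtain ⟨v, hv, hvt⟩ := ht
      unfold FK.Bq at hv
      simp only [Finset.mem_product, Finset.mem_Ico, Prod.fst_sub, Prod.snd_sub] at hv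
      rcases hvt with rfl | rfl | rfl | rfl <;> omega
  have key2 : ∀ x y : ℝ, ((nm (t - ro (p k)) : ℤ) : ℝ) ≤ x → δ * x ≤ y →
      δ * ((nm (t - ro (p k)) : ℤ) : ℝ) ≤ y := fun x y hx hy =>
    (mul_le_mul_of_nonneg_left hx hδ.le).trans hy
  rcases key with h | h
  · have h' : ((nm (t - ro (p k)) : ℤ) : ℝ) ≤ (mq C.Lc s δ : ℝ) + 3 := by exact_mod_cast h
    refine key2 _ _ h' ?_
    rw [mul_add]
    linarith
  · have h' : ((nm (t - ro (p k)) : ℤ) : ℝ) ≤ (mq C.Ld s δ : ℝ) + (mb C.m δ : ℝ) := by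
      exact_mod_cast h
    refine key2 _ _ h' ?_
    rw [mul_add]
    linarith

end Vale.Agent.P167.H825.B5
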