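import Vale.Agent.P167.H476.Q.Out
import Vale.Agent.P167.H72.SD.NS

/-!
# P167, general `q`, [BAD], (ARM): the long clusters of the frozen squares give arms

`arm_up`: closed paths of the domain; `arm_lo`: open paths of the domain which lead to a wired site. The
squares off the domain have the colour of the boundary near the box.
-/

set_option autoImplicit false

namespace Vale.Agent.P167.H825.B5

open Finset Relation
open Vale.Agent.P145.FB (PStep)
open Vale.Agent.P167.H166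
open Vale.Agent.P167.FKA (Cor)
open Vale.Agent.P167.E6 (edges Encloses IsPolygon dir face wiredOpen)
open Vale.Agent.P167.H718 (Dq etaQ)
open Vale.Agent.P167.H161 (Rd eo)
open Vale.Agent.P167.H531.Q (BC)
open Vale.Agent.P167.H174.CT (NearC thk rep)
open Vale.Agent.P167.H476.K (bc_of_nm bc_of_path Vo out_bc out_wired rep_thk)
open Vale.Agent.P167.H72.SD (dk om Wr om_rd open_out NSup NSlo)

variable {n : ℕ} {p : ZMod n → ℤ × ℤ} {S : Finset (ℤ × ℤ)} {k : ℕ} {z : ℤ × ℤ} {R : ℤ} {c : Bool}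
  {A : Finset (Sym2 (ℤ × ℤ))} {j : ℕ} {s t : ℤ × ℤ}

theorem mn {α : Type} {r r' : α → α → Prop} (h : ∀ a b, r a b → r' a b) {a b : α}
    (hab : ReflTransGen r a b) : ReflTransGen r' a b := by
  induction hab with
  | refl => exact ReflTransGen.refl
  | tail _ h2 ih => exact ih.tail (h _ _ h2)

theorem rep_in {D : Finset (ℤ × ℤ)} {η ω : Cfg} {v : ℤ × ℤ} (hv : v ∈ D) : rep D η ω v = ω v := by
  unfold rep
  rw [if_pos hv]

theorem dk_sub : dk p k S A j ⊆ Dq S p k := by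
  unfold dk
  exact sdiff_subset

theorem rd_sub : Rd p k S A j ⊆ Dq S p k := by
  intro v hv
  have h1 := H161.Rd_subset j hv
  rwa [QG.dq_eq] at h1

/-- A path of squares of the domain leads to the boundary of the box. -/
theorem path_bc {b : Bool} {V : Set (ℤ × ℤ)} (hV : ∀ v ∈ V, v ∈ Dq S p k ∧ om p k A v = b)
    (hs : nm (s - z) ≤ R) (h : ReflTransGen (PStep V) s t) (ht : R ≤ nm (t - z)) :
    ∃ t', BC z R t' ∧ ReflTransGen (PStep {v | v ∈ FK.Bq z R ∧
      rep (Dq S p k) (thk p k S z R c) (om p k A) v = b}) s t' := by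
  obtain ⟨t', h1, h2⟩ := bc_of_path hs h ht
  refine ⟨t', h1, mn (fun a b hab => ⟨hab.1, hab.2.1, hab.2.2.1, ?_⟩) h2⟩
  obtain ⟨h3, h4⟩ := hV _ hab.2.2.2
  rw [rep_in h3, h4]

/-- **Closed arms.** -/
theorem arm_up (hs : nm (s - z) ≤ R)
    (h : ReflTransGen (PStep {v | v ∈ dk p k S A j ∧ om p k A v = false}) s t)
    (ht : R ≤ nm (t - z)) :
    ∃ t', BC z R t' ∧ ReflTransGen (PStep {v | v ∈ FK.Bq z R ∧
      rep (Dq S p k) (thk p k S z R c) (om p k A) v = false}) s t' :=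
  path_bc (A := A) (fun v hv => ⟨dk_sub hv.1, hv.2⟩) hs h ht

theorem path_in {V : Set (ℤ × ℤ)} (hs : nm (s - z) < R) (h : ReflTransGen (PStep V) s t) :
    (∃ t', BC z R t' ∧ ReflTransGen (PStep {v | v ∈ FK.Bq z R ∧ v ∈ V}) s t') ∨
      (nm (t - z) < R ∧ ReflTransGen (PStep {v | v ∈ FK.Bq z R ∧ v ∈ V}) s t) := by
  induction h with
  | refl => exact Or.inr ⟨hs, ReflTransGen.refl⟩
  | @tail a b _ hab ih =>
    rcases ih with ih | ⟨i1, i2⟩
    · exact Or.inl ih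
    · obtain ⟨h1, h2, h3⟩ := hab
      have hq : (min a.1 b.1, min a.2 b.2) ∈ FK.Bq z R := by
        rw [mem_Bq]
        simp only [nm, Prod.fst_sub, Prod.snd_sub, max_lt_iff, abs_lt] at i1
        simp only
        omega
      have h4 : ReflTransGen (PStep {v | v ∈ FK.Bq z R ∧ v ∈ V}) s b :=
        i2.tail ⟨h1, h2, hq, h3⟩
      have h5 : nm (b - z) ≤ R := by
        simp only [nm, Prod.fst_sub, Prod.snd_sub, max_lt_iff, abs_lt] at i1
        simp only [nm, Prod.fst_sub, Prod.snd_sub, max_le_iff, abs_le]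
        omega
      rcases lt_or_eq_of_le h5 with h6 | h6
      · exact Or.inr ⟨h6, h4⟩
      · exact Or.inl ⟨b, bc_of_nm h6, h4⟩

/-- A wired site of the box is joined to the boundary of the box in the thick configuration. -/
theorem wr_bc (hp : IsPolygon p) (hS : Encloses p S) (hk0 : 0 < k) (hk : k + 1 < n)
    (hA : A ⊆ edges S) (hN : NearC p k z R c) (ht : nm (t - z) < R)
    (hW : t ∈ Wr (dk p k S A j) (om p k A)) :
    ∃ t', BC z R t' ∧ ReflTransGen (PStep {v | v ∈ FK.Bq z R ∧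
      rep (Dq S p k) (thk p k S z R c) (om p k A) v = true}) t t' := by
  -- wired vertices of the box
  have hvx : ∀ i : ℕ, k ≤ i → i < n → nm (H192.ro (p i) - z) ≤ R →
      ∃ t', BC z R t' ∧ ReflTransGen (PStep {v | v ∈ FK.Bq z R ∧
        rep (Dq S p k) (thk p k S z R c) (om p k A) v = true}) (H192.ro (p i)) t' := by
    intro i h1 h2 h3
    have hc : c = true := (hN i h2 (by omega)).2 h1
    subst hc
    obtain ⟨t', h4, h5⟩ := out_wired hp hS hk0 (by omega) hN i h1 h2 h3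
    exact ⟨t', h4, mn (fun a b hab => ⟨hab.1, hab.2.1, hab.2.2.1,
      rep_thk hab.2.2.1 hab.2.2.2⟩) h5⟩
  obtain ⟨hse, v, hvD, hv, hvs⟩ := hW
  by_cases hq : v ∈ Dq S p k
  · have hR : v ∈ Rd p k S A j := by
      by_contra h
      exact hvD (mem_sdiff.2 ⟨hq, h⟩)
    have hv' : H192.cfg (A : Set (Sym2 (ℤ × ℤ))) v = true := by rw [← om_rd hR]; exact hv
    have h1 : v ∈ eo p k S (H192.cfg (A : Set (Sym2 (ℤ × ℤ)))) (j - 1) := ⟨hR, hv'⟩
    obtain ⟨i, hi1, hi2, h2⟩ := H161.open_wired (by omega) _ h1 (Int.even_iff.1 hse) hvs.1 hvs.2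
    have h3 := FKA.rtg_symm h2
    have hval : ∀ w ∈ eo p k S (H192.cfg (A : Set (Sym2 (ℤ × ℤ)))) (j - 1),
        w ∈ Dq S p k ∧ om p k A w = true := fun w hw => by
      have hw1 : w ∈ Rd p k S A j := hw.1
      exact ⟨rd_sub hw1, by rw [om_rd hw1]; exact hw.2⟩
    have hmono : ∀ a b, PStep {v | v ∈ FK.Bq z R ∧
        v ∈ eo p k S (H192.cfg (A : Set (Sym2 (ℤ × ℤ)))) (j - 1)} a b →
        PStep {v | v ∈ FK.Bq z R ∧
          rep (Dq S p k) (thk p k S z R c) (om p k A) v = true} a b := fun a b hab => by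
      obtain ⟨h5, h6⟩ := hval _ hab.2.2.2
      exact ⟨hab.1, hab.2.1, hab.2.2.1, by rw [rep_in h5, h6]⟩
    rcases path_in ht h3 with ⟨t', h4, h5⟩ | ⟨h4, h5⟩
    · exact ⟨t', h4, mn hmono h5⟩
    · obtain ⟨t', h6, h7⟩ := hvx i hi1 hi2 h4.le
      exact ⟨t', h6, (mn hmono h5).trans h7⟩
  · -- the wired arc
    have hb : v ∈ FK.Bq z R := by
      rw [mem_Bq]
      obtain ⟨h3, h4⟩ := hvs
      simp only [nm, Prod.fst_sub, Prod.snd_sub, max_lt_iff, abs_lt] at ht
      omega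
    obtain ⟨i, hi1, hi2, h1⟩ := open_out hA hq hv
    have hE : H192.ed v ∈ H718.wE p k := H718.mem_wE.2 ⟨i, hi1, hi2, h1⟩
    obtain ⟨i', g1, g2, -, g4, -⟩ := H174.CT.fw_cor hp hE
    have hn : nm (H192.ro (p i') - z) ≤ R + 1 := H174.CT.cor_near g4 (H174.CT.bq_nm hb)
    have hc : c = true := (hN i' (by omega) hn).2 g1
    subst hc
    obtain ⟨t', h4, h5⟩ := out_bc hp hS hk0 hk hN hb hq hvs (by
      rw [Int.even_iff.1 hse]; rfl)
    exact ⟨t', h4, mn (fun a b hab => ⟨hab.1, hab.2.1, hab.2.2.1,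
      rep_thk hab.2.2.1 hab.2.2.2⟩) h5⟩

/-- **Open arms.** -/
theorem arm_lo (hp : IsPolygon p) (hS : Encloses p S) (hk0 : 0 < k) (hk : k + 1 < n)
    (hA : A ⊆ edges S) (hN : NearC p k z R c) (hs : nm (s - z) ≤ R)
    (h : ReflTransGen (PStep {v | v ∈ dk p k S A j ∧ om p k A v = true}) s t)
    (ht : t ∈ Wr (dk p k S A j) (om p k A) ∨ R ≤ nm (t - z)) :
    ∃ t', BC z R t' ∧ ReflTransGen (PStep {v | v ∈ FK.Bq z R ∧
      rep (Dq S p k) (thk p k S z R c) (om p k A) v = true}) s t' := by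
  rcases ht with ht | ht
  swap
  · exact path_bc (A := A) (fun v hv => ⟨dk_sub hv.1, hv.2⟩) hs h ht
  rcases lt_or_eq_of_le hs with h1 | h1
  swap
  · exact ⟨s, bc_of_nm h1, ReflTransGen.refl⟩
  have hmono : ∀ a b, PStep {v | v ∈ FK.Bq z R ∧
      v ∈ {v | v ∈ dk p k S A j ∧ om p k A v = true}} a b →
      PStep {v | v ∈ FK.Bq z R ∧
        rep (Dq S p k) (thk p k S z R c) (om p k A) v = true} a b := fun a b hab => by
    obtain ⟨h5, h6⟩ := hab.2.2.2
    exact ⟨hab.1, hab.2.1, hab.2.2.1, by rw [rep_in (dk_sub h5), h6]⟩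
  rcases path_in h1 h with ⟨t', h4, h5⟩ | ⟨h4, h5⟩
  · exact ⟨t', h4, mn hmono h5⟩
  · obtain ⟨t', h6, h7⟩ := wr_bc hp hS hk0 hk hA hN h4 ht
    exact ⟨t', h6, (mn hmono h5).trans h7⟩

/-- **(ARM), both colours.** The event `NSup` / `NSlo` of the complete configuration gives a corner of a
square of `Bad` with an arm to the boundary of every box around it which is far from the target. -/
theorem arm_ns (hp : IsPolygon p) (hS : Encloses p S) (hk0 : 0 < k) (hk : k + 1 < n)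
    (hA : A ⊆ edges S) {Bad : Finset (ℤ × ℤ)} {b : Bool} {Bx : Finset (ℤ × ℤ)} {F : Set (ℤ × ℤ)}
    (h : om p k A ∈ (if b then NSup (dk p k S A j) Bad Bx
      else NSlo (dk p k S A j) (om p k A) Bad F)) :
    ∃ v ∈ Bad, ∃ s : ℤ × ℤ, Cor v s ∧ (s.1 + s.2) % 2 = QC.par (!b) ∧
      ∀ (z : ℤ × ℤ) (R : ℤ) (c : Bool), NearC p k z R c → nm (s - z) ≤ R →
        (∀ t, (if b then t ∈ BR.sites Bx else t ∈ F) → R ≤ nm (t - z)) →
        ∃ t', BC z R t' ∧ ReflTransGen (PStep {v | v ∈ FK.Bq z R ∧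
          rep (Dq S p k) (thk p k S z R c) (om p k A) v = !b}) s t' := by
  cases b
  · obtain ⟨s, t, ⟨v, hv, hvs⟩, hpar, ht, h1⟩ := h
    refine ⟨v, hv, s, hvs, hpar, fun z R c hN hs hfar => ?_⟩
    exact arm_lo hp hS hk0 hk hA hN hs h1 (ht.imp_right (hfar t))
  · obtain ⟨s, t, ⟨v, hv, hvs⟩, hpar, ht, h1⟩ := h
    refine ⟨v, hv, s, hvs, hpar, fun z R c hN hs hfar => ?_⟩
    exact arm_up hs h1 (hfar t ht)

end Vale.Agent.P167.H825.B5
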