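import Vale.Agent.P167.H825.B5.Arm
import Vale.Agent.P167.H174.BD.Lit

/-!
# P167, general `q`, [BAD]: `P_arm`
-/

set_option autoImplicit false

namespace Vale.Agent.P167.H825.B5

/-- **(ARM)** -/
theorem p_arm : H174.BD.P_arm := by
  intro n p k S hp hS hk0 hk A hA j _ z R c col hN _ _ q t _ hq hpath ht
  cases c
  · exact arm_lo hp hS hk0 hk hA hN hq hpath (ht.elim (fun h => Or.inr h.le) fun h => Or.inl h.2)
  · exact arm_up hq hpath (ht.elim (fun h => h.le) fun h => absurd h.1 (by decide))

end Vale.Agent.P167.H825.B5
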